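import Mathlib

/-!
# A counting theorem for levelled triple systems (support for P302)

Items carry a level `lev` and a kind (`bin`, `obj`, `abs` or `unit`).  Level `0` has `c + 3`
items; every level `1 ≤ l ≤ d` has `B l` bins, `2 * B l + 1` objects and two absorbers.  A family of
triples (lists of length three, jointly a sub-multiset of the items) is given such that

* (A1) no triple lies inside level `0`;
* (A2) a triple whose top level contains an object `o` contains a bin of that level, or both
  absorbers of that level;
* (A3) on every level `l` at most `B l - c` triples of the family consist of a bin and two objects of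
  that level.

Then the family leaves at least `c + 3` items uncovered: `3 * #triples + (c + 3) ≤ #items`.
-/

namespace Vale.Agent.H5.BinPack

/-- Kinds of items in a level of the chain construction. -/
inductive Kind | bin | obj | abs | unit
  deriving DecidableEq

/-- Classification of an item relative to a fixed level `m`: object, bin or absorber of level
`m`, or lower / other. -/
inductive Cls | O | Bn | A | L
  deriving DecidableEq

section lists

variable {β : Type*}

lemma sum_ge_two_count (f : β → ℕ) (l : List β) :
    2 * l.countP (fun x => decide (f x = 2)) + l.countP (fun x => decide (f x ≠ 0 ∧ f x ≠ 2))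
      ≤ (l.map f).sum := by
  induction l with
  | nil => simp
  | cons a l ih =>
    simp only [List.countP_cons, List.map_cons, List.sum_cons, decide_eq_true_eq]
    split_ifs <;> omega

lemma sum_ineq_a (l : List β) (a b e g : β → ℕ)
    (h : ∀ x ∈ l, a x + b x ≤ 2 * e x + (if g x = 2 then 1 else 0)) :
    (l.map a).sum + (l.map b).sum
      ≤ 2 * (l.map e).sum + l.countP (fun x => decide (g x = 2)) := by
  induction l with
  | nil => simp
  | cons x l ih =>
    have hx := h x (List.mem_cons_self)
    have ih' := ih (fun y hy => h y (List.mem_cons_of_mem _ hy))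
    simp only [List.countP_cons, List.map_cons, List.sum_cons]
    by_cases h2 : g x = 2
    · simp [h2] at hx ⊢; omega
    · simp [h2] at hx ⊢; omega

lemma sum_ineq_b (l : List β) (a e : β → ℕ) (p : β → Prop) [DecidablePred p]
    (h : ∀ x ∈ l, a x ≤ e x + (if p x then 1 else 0)) :
    (l.map a).sum ≤ (l.map e).sum + l.countP (fun x => decide (p x)) := by
  induction l with
  | nil => simp
  | cons x l ih =>
    have hx := h x (List.mem_cons_self)
    have ih' := ih (fun y hy => h y (List.mem_cons_of_mem _ hy))
    simp only [List.countP_cons, List.map_cons, List.sum_cons]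
    by_cases h2 : p x
    · simp [h2] at hx ⊢; omega
    · simp [h2] at hx ⊢; omega

lemma sum_four (l : List β) (a b e g : β → ℕ)
    (h : ∀ x ∈ l, a x + b x + e x + g x = 3) :
    (l.map a).sum + (l.map b).sum + (l.map e).sum + (l.map g).sum = 3 * l.length := by
  induction l with
  | nil => simp
  | cons x l ih =>
    have hx := h x (List.mem_cons_self)
    have ih' := ih (fun y hy => h y (List.mem_cons_of_mem _ hy))
    simp only [List.map_cons, List.sum_cons, List.length_cons]
    omega

end lists

section core

variable {α : Type*} (lev : α → ℕ) (kind : α → Kind)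

/-- The class of an item relative to level `m`. -/
def cls (m : ℕ) (i : α) : Cls :=
  if lev i = m then
    match kind i with
    | Kind.obj => Cls.O
    | Kind.bin => Cls.Bn
    | Kind.abs => Cls.A
    | Kind.unit => Cls.L
  else Cls.L

lemma cls_O_iff (m : ℕ) (i : α) : cls lev kind m i = Cls.O ↔ kind i = Kind.obj ∧ lev i = m := by
  unfold cls
  by_cases h : lev i = m
  · cases hk : kind i <;> simp [h]
  · simp [h]

lemma cls_Bn_iff (m : ℕ) (i : α) : cls lev kind m i = Cls.Bn ↔ kind i = Kind.bin ∧ lev i = m := by
  unfold cls
  by_cases h : lev i = m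
  · cases hk : kind i <;> simp [h]
  · simp [h]

lemma cls_A_iff (m : ℕ) (i : α) : cls lev kind m i = Cls.A ↔ kind i = Kind.abs ∧ lev i = m := by
  unfold cls
  by_cases h : lev i = m
  · cases hk : kind i <;> simp [h]
  · simp [h]

lemma cls_L_iff (m : ℕ) (i : α) :
    cls lev kind m i = Cls.L ↔ lev i ≠ m ∨ kind i = Kind.unit := by
  unfold cls
  by_cases h : lev i = m
  · cases hk : kind i <;> simp [h]
  · simp [h]

/-- Number of items of class `k` (relative to level `m`) in a list. -/
def cnt (m : ℕ) (k : Cls) (T : List α) : ℕ :=
  T.countP (fun i => decide (cls lev kind m i = k))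

lemma cnt_sum (m : ℕ) (T : List α) :
    cnt lev kind m Cls.O T + cnt lev kind m Cls.Bn T + cnt lev kind m Cls.A T
      + cnt lev kind m Cls.L T = T.length := by
  induction T with
  | nil => simp [cnt]
  | cons a T ih =>
    simp only [cnt, List.countP_cons, List.length_cons] at ih ⊢
    cases h : cls lev kind m a <;> simp <;> omega

lemma mcnt_sum (m : ℕ) (s : Multiset α) :
    s.countP (fun i => cls lev kind m i = Cls.O) + s.countP (fun i => cls lev kind m i = Cls.Bn)
      + s.countP (fun i => cls lev kind m i = Cls.A) + s.countP (fun i => cls lev kind m i = Cls.L)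
      = Multiset.card s := by
  induction s using Quotient.inductionOn with
  | _ l =>
    have := cnt_sum lev kind m l
    simpa [cnt, Multiset.coe_countP] using this

lemma tot_le (m : ℕ) (k : Cls) (items : Multiset α) (Ts : List (List α))
    (hsub : ((Ts.flatten : List α) : Multiset α) ≤ items) :
    (Ts.map (cnt lev kind m k)).sum ≤ items.countP (fun i => cls lev kind m i = k) := by
  have h := Multiset.countP_le_of_le (fun i => cls lev kind m i = k) hsub
  rw [Multiset.coe_countP, List.countP_flatten] at h
  exact h


/-- Auxiliary form of the counting theorem, carrying the exact number of items. -/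
theorem core_aux (B : ℕ → ℕ) (c : ℕ) : ∀ (d : ℕ) (items : Multiset α) (triples : List (List α)),
    ((triples.flatten : List α) : Multiset α) ≤ items →
    (∀ T ∈ triples, T.length = 3) →
    (∀ i ∈ items, lev i ≤ d) →
    Multiset.card (items.filter (fun i => lev i = 0)) = c + 3 →
    (∀ l, 1 ≤ l → l ≤ d →
      Multiset.card (items.filter (fun i => lev i = l ∧ kind i = Kind.bin)) = B l) →
    (∀ l, 1 ≤ l → l ≤ d →
      Multiset.card (items.filter (fun i => lev i = l ∧ kind i = Kind.obj)) = 2 * B l + 1) →
    (∀ l, 1 ≤ l → l ≤ d →
      Multiset.card (items.filter (fun i => lev i = l ∧ kind i = Kind.abs)) = 2) →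
    (∀ i ∈ items, 1 ≤ lev i → kind i ≠ Kind.unit) →
    (∀ T ∈ triples, ∃ i ∈ T, 1 ≤ lev i) →
    (∀ T ∈ triples, ∀ o ∈ T, kind o = Kind.obj → (∀ i ∈ T, lev i ≤ lev o) →
        (∃ b ∈ T, kind b = Kind.bin ∧ lev b = lev o) ∨
        T.countP (fun i => decide (kind i = Kind.abs ∧ lev i = lev o)) = 2) →
    (∀ l, 1 ≤ l → l ≤ d → triples.countP (fun T =>
        decide (T.countP (fun i => decide (kind i = Kind.obj ∧ lev i = l)) = 2 ∧
          ∃ b ∈ T, kind b = Kind.bin ∧ lev b = l)) + c ≤ B l) →
    (∃ k, Multiset.card items = c + 3 + 3 * k) ∧
      3 * triples.length + (c + 3) ≤ Multiset.card items := by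
  intro d
  induction d with
  | zero =>
    intro items triples hsub hlen hlev h0 hbin hobj habs hkind hA1 hA2 hA3
    have hitems : items.filter (fun i => lev i = 0) = items := by
      apply Multiset.filter_eq_self.mpr
      intro i hi
      exact Nat.le_zero.mp (hlev i hi)
    have htr : triples = [] := by
      by_contra hne
      obtain ⟨T, hT⟩ := List.exists_mem_of_ne_nil _ hne
      obtain ⟨i, hiT, hi⟩ := hA1 T hT
      have hmem : i ∈ items := Multiset.mem_of_le hsub (by
        simp only [Multiset.mem_coe, List.mem_flatten]
        exact ⟨T, hT, hiT⟩)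
      have := hlev i hmem
      omega
    subst htr
    rw [hitems] at h0
    exact ⟨⟨0, by omega⟩, by simp [h0]⟩
  | succ d ih =>
    intro items triples hsub hlen hlev h0 hbin hobj habs hkind hA1 hA2 hA3
    have hmem : ∀ T ∈ triples, ∀ i ∈ T, i ∈ items := fun T hT i hi =>
      Multiset.mem_of_le hsub (by
        simp only [Multiset.mem_coe, List.mem_flatten]
        exact ⟨T, hT, hi⟩)
    -- the lower part
    have hperm : (triples.filter (fun T => decide (∀ i ∈ T, lev i ≤ d)) ++
        triples.filter (fun T => !decide (∀ i ∈ T, lev i ≤ d))).Perm triples :=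
      List.filter_append_perm _ _
    generalize hTlow : triples.filter (fun T => decide (∀ i ∈ T, lev i ≤ d)) = Tlow at hperm
    generalize hTtop : triples.filter (fun T => !decide (∀ i ∈ T, lev i ≤ d)) = Ttop at hperm
    have hlowsub : Tlow.Sublist triples := by rw [← hTlow]; exact List.filter_sublist
    have htopsub : Ttop.Sublist triples := by rw [← hTtop]; exact List.filter_sublist
    have hlowmem : ∀ T ∈ Tlow, ∀ i ∈ T, lev i ≤ d := by
      intro T hT
      rw [← hTlow] at hT
      have := (List.mem_filter.mp hT).2
      simpa using this
    have htopmem : ∀ T ∈ Ttop, ¬ ∀ i ∈ T, lev i ≤ d := by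
      intro T hT
      rw [← hTtop] at hT
      have := (List.mem_filter.mp hT).2
      simpa using this
    have hIH := ih (items.filter (fun i => lev i ≤ d)) Tlow
      (by
        apply Multiset.le_filter.mpr
        refine ⟨le_trans (Multiset.coe_le.mpr (hlowsub.flatten.subperm)) hsub, ?_⟩
        intro a ha
        simp only [Multiset.mem_coe, List.mem_flatten] at ha
        obtain ⟨T, hT, haT⟩ := ha
        exact hlowmem T hT a haT)
      (fun T hT => hlen T (hlowsub.subset hT))
      (fun i hi => (Multiset.mem_filter.mp hi).2)
      (by
        rw [Multiset.filter_filter, ← h0]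
        congr 1
        apply Multiset.filter_congr
        intro x _
        constructor
        · exact fun h => h.1
        · exact fun h => ⟨h, by omega⟩)
      (by
        intro l h1 hl
        rw [Multiset.filter_filter, ← hbin l h1 (by omega)]
        congr 1
        apply Multiset.filter_congr
        intro x _
        constructor
        · exact fun h => h.1
        · exact fun h => ⟨h, by omega⟩)
      (by
        intro l h1 hl
        rw [Multiset.filter_filter, ← hobj l h1 (by omega)]
        congr 1
        apply Multiset.filter_congr
        intro x _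
        constructor
        · exact fun h => h.1
        · exact fun h => ⟨h, by omega⟩)
      (by
        intro l h1 hl
        rw [Multiset.filter_filter, ← habs l h1 (by omega)]
        congr 1
        apply Multiset.filter_congr
        intro x _
        constructor
        · exact fun h => h.1
        · exact fun h => ⟨h, by omega⟩)
      (fun i hi => hkind i (Multiset.mem_filter.mp hi).1)
      (fun T hT => hA1 T (hlowsub.subset hT))
      (fun T hT => hA2 T (hlowsub.subset hT))
      (fun l h1 hl => le_trans (Nat.add_le_add_right (hlowsub.countP_le) c)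
        (hA3 l h1 (by omega)))
    obtain ⟨⟨k0, hcardlow⟩, hIHle⟩ := hIH
    -- abbreviations relative to the top level
    -- cardinalities of the top level
    have hcO : items.countP (fun i => cls lev kind (d + 1) i = Cls.O) = 2 * B (d + 1) + 1 := by
      rw [Multiset.countP_eq_card_filter, ← hobj (d + 1) (by omega) le_rfl]
      congr 1
      apply Multiset.filter_congr
      intro x _
      rw [cls_O_iff]
      exact And.comm
    have hcB : items.countP (fun i => cls lev kind (d + 1) i = Cls.Bn) = B (d + 1) := by
      rw [Multiset.countP_eq_card_filter, ← hbin (d + 1) (by omega) le_rfl]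
      congr 1
      apply Multiset.filter_congr
      intro x _
      rw [cls_Bn_iff]
      exact And.comm
    have hcA : items.countP (fun i => cls lev kind (d + 1) i = Cls.A) = 2 := by
      rw [Multiset.countP_eq_card_filter, ← habs (d + 1) (by omega) le_rfl]
      congr 1
      apply Multiset.filter_congr
      intro x _
      rw [cls_A_iff]
      exact And.comm
    have hLiff : ∀ x ∈ items, (cls lev kind (d + 1) x = Cls.L ↔ lev x ≤ d) := by
      intro x hx
      rw [cls_L_iff]
      constructor
      · rintro (h | h)
        · have := hlev x hx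
          omega
        · by_contra hle
          exact hkind x hx (by omega) h
      · intro h
        left
        omega
    have hcL : items.countP (fun i => cls lev kind (d + 1) i = Cls.L)
        = Multiset.card (items.filter (fun i => lev i ≤ d)) := by
      rw [Multiset.countP_eq_card_filter]
      congr 1
      exact Multiset.filter_congr hLiff
    have hcard : Multiset.card items
        = (2 * B (d + 1) + 1) + B (d + 1) + 2 + Multiset.card (items.filter (fun i => lev i ≤ d)) := by
      rw [← mcnt_sum lev kind (d + 1) items, hcO, hcB, hcA, hcL]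
    have hcard' : Multiset.card items = c + 3 + 3 * (k0 + B (d + 1) + 1) := by
      rw [hcard, hcardlow]
      ring
    refine ⟨⟨_, hcard'⟩, ?_⟩
    -- totals over the triples
    have htO := tot_le lev kind (d + 1) Cls.O items triples hsub
    have htB := tot_le lev kind (d + 1) Cls.Bn items triples hsub
    have htA := tot_le lev kind (d + 1) Cls.A items triples hsub
    have htL := tot_le lev kind (d + 1) Cls.L items triples hsub
    rw [hcO] at htO
    rw [hcB] at htB
    rw [hcA] at htA
    rw [hcL] at htL
    have hsplit : ∀ f : List α → ℕ,
        (triples.map f).sum = (Tlow.map f).sum + (Ttop.map f).sum := by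
      intro f
      rw [← (hperm.map f).sum_eq, List.map_append, List.sum_append]
    have hlensplit : triples.length = Tlow.length + Ttop.length := by
      rw [← hperm.length_eq, List.length_append]
    -- per-triple facts
    have h4 : ∀ T ∈ triples, (cnt lev kind (d + 1) Cls.O) T + (cnt lev kind (d + 1) Cls.Bn) T + (cnt lev kind (d + 1) Cls.A) T + (cnt lev kind (d + 1) Cls.L) T = 3 := by
      intro T hT
      rw [← hlen T hT]
      exact cnt_sum lev kind (d + 1) T
    have hii : ∀ T ∈ triples, 1 ≤ (cnt lev kind (d + 1) Cls.O) T → 1 ≤ (cnt lev kind (d + 1) Cls.Bn) T ∨ (cnt lev kind (d + 1) Cls.A) T = 2 := by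
      intro T hT hpos
      obtain ⟨o, hoT, ho⟩ := List.countP_pos_iff.mp hpos
      have ho' : kind o = Kind.obj ∧ lev o = (d + 1) := by
        rw [← cls_O_iff]
        simpa using ho
      have hle : ∀ i ∈ T, lev i ≤ lev o := by
        intro i hi
        rw [ho'.2]
        exact hlev i (hmem T hT i hi)
      rcases hA2 T hT o hoT ho'.1 hle with ⟨b, hbT, hb⟩ | h2
      · left
        apply List.countP_pos_iff.mpr
        refine ⟨b, hbT, ?_⟩
        have : cls lev kind (d + 1) b = Cls.Bn := by
          rw [cls_Bn_iff]
          exact ⟨hb.1, by rw [hb.2, ho'.2]⟩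
        simpa using this
      · right
        rw [← h2]
        unfold cnt
        apply List.countP_congr
        intro x _
        simp only [decide_eq_true_eq]
        rw [cls_A_iff, ho'.2]
    by_cases ha : ∃ T0 ∈ triples, (cnt lev kind (d + 1) Cls.A) T0 = 2
    · -- case (a): both absorbers sit in one triple
      obtain ⟨T0, hT0, hT0A⟩ := ha
      have hcount2 : 1 ≤ triples.countP (fun T => decide ((cnt lev kind (d + 1) Cls.A) T = 2)) :=
        List.countP_pos_iff.mpr ⟨T0, hT0, by simpa using hT0A⟩
      have hge := sum_ge_two_count (cnt lev kind (d + 1) Cls.A) triples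
      have hnoother : triples.countP (fun T => decide ((cnt lev kind (d + 1) Cls.A) T ≠ 0 ∧ (cnt lev kind (d + 1) Cls.A) T ≠ 2)) = 0 := by omega
      have hcount2le : triples.countP (fun T => decide ((cnt lev kind (d + 1) Cls.A) T = 2)) ≤ 1 := by omega
      have hpt : ∀ T ∈ Ttop, (cnt lev kind (d + 1) Cls.L) T + (cnt lev kind (d + 1) Cls.O) T ≤ 2 * (cnt lev kind (d + 1) Cls.Bn) T + (if (cnt lev kind (d + 1) Cls.A) T = 2 then 1 else 0) := by
        intro T hT
        have hTt := htopsub.subset hT
        have h3 := h4 T hTt
        have hnotlow := htopmem T hT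
        have hL2 : (cnt lev kind (d + 1) Cls.L) T ≤ 2 := by
          by_contra hcon
          have hL3 : (cnt lev kind (d + 1) Cls.L) T = T.length := by
            have := hlen T hTt
            omega
          have hall := List.countP_eq_length.mp hL3
          apply hnotlow
          intro i hi
          have := hall i hi
          have hc : cls lev kind (d + 1) i = Cls.L := by simpa using this
          exact (hLiff i (hmem T hTt i hi)).mp hc
        by_cases hB : 1 ≤ (cnt lev kind (d + 1) Cls.Bn) T
        · split_ifs <;> omega
        · by_cases hA : (cnt lev kind (d + 1) Cls.A) T = 2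
          · rw [if_pos hA]
            omega
          · exfalso
            have hO : (cnt lev kind (d + 1) Cls.O) T = 0 := by
              by_contra hO
              rcases hii T hTt (by omega) with h | h
              · exact hB h
              · exact hA h
            have hmemc : 0 < triples.countP (fun T => decide ((cnt lev kind (d + 1) Cls.A) T ≠ 0 ∧ (cnt lev kind (d + 1) Cls.A) T ≠ 2)) := by
              apply List.countP_pos_iff.mpr
              refine ⟨T, hTt, ?_⟩
              have : (cnt lev kind (d + 1) Cls.A) T ≠ 0 ∧ (cnt lev kind (d + 1) Cls.A) T ≠ 2 := ⟨by omega, hA⟩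
              simpa using this
            omega
      have hsum := sum_ineq_a Ttop (cnt lev kind (d + 1) Cls.L) (cnt lev kind (d + 1) Cls.O) (cnt lev kind (d + 1) Cls.Bn) (cnt lev kind (d + 1) Cls.A) hpt
      have h4top := sum_four Ttop (cnt lev kind (d + 1) Cls.O) (cnt lev kind (d + 1) Cls.Bn) (cnt lev kind (d + 1) Cls.A) (cnt lev kind (d + 1) Cls.L) (fun T hT => h4 T (htopsub.subset hT))
      have hctop : Ttop.countP (fun T => decide ((cnt lev kind (d + 1) Cls.A) T = 2)) ≤ 1 :=
        le_trans htopsub.countP_le hcount2le
      have hBtop : (Ttop.map (cnt lev kind (d + 1) Cls.Bn)).sum ≤ B (d + 1) := by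
        have := hsplit (cnt lev kind (d + 1) Cls.Bn)
        omega
      have hAtop : (Ttop.map (cnt lev kind (d + 1) Cls.A)).sum ≤ 2 := by
        have := hsplit (cnt lev kind (d + 1) Cls.A)
        omega
      omega
    · -- case (b): the absorbers are never together
      have ha' : ∀ T ∈ triples, (cnt lev kind (d + 1) Cls.A) T ≠ 2 := fun T hT h => ha ⟨T, hT, h⟩
      have hpt : ∀ T ∈ triples,
          (cnt lev kind (d + 1) Cls.O) T ≤ (cnt lev kind (d + 1) Cls.Bn) T + (if ((cnt lev kind (d + 1) Cls.O) T = 2 ∧ 1 ≤ (cnt lev kind (d + 1) Cls.Bn) T) then 1 else 0) := by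
        intro T hT
        have h3 := h4 T hT
        by_cases hO : (cnt lev kind (d + 1) Cls.O) T = 0
        · omega
        · rcases hii T hT (by omega) with h | h
          · split_ifs with hc
            · omega
            · have : (cnt lev kind (d + 1) Cls.O) T ≠ 2 := fun h2 => hc ⟨h2, h⟩
              omega
          · exact absurd h (ha' T hT)
      have hsum := sum_ineq_b triples (cnt lev kind (d + 1) Cls.O) (cnt lev kind (d + 1) Cls.Bn) (fun T => (cnt lev kind (d + 1) Cls.O) T = 2 ∧ 1 ≤ (cnt lev kind (d + 1) Cls.Bn) T) hpt
      have hA3' := hA3 (d + 1) (by omega) le_rfl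
      have hcongr : triples.countP (fun T => decide ((cnt lev kind (d + 1) Cls.O) T = 2 ∧ 1 ≤ (cnt lev kind (d + 1) Cls.Bn) T))
          = triples.countP (fun T =>
              decide (T.countP (fun i => decide (kind i = Kind.obj ∧ lev i = (d + 1))) = 2 ∧
                ∃ b ∈ T, kind b = Kind.bin ∧ lev b = (d + 1))) := by
        apply List.countP_congr
        intro T _
        simp only [decide_eq_true_eq]
        have e1 : (cnt lev kind (d + 1) Cls.O) T = T.countP (fun i => decide (kind i = Kind.obj ∧ lev i = (d + 1))) := by
          unfold cnt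
          apply List.countP_congr
          intro x _
          simp only [decide_eq_true_eq]
          rw [cls_O_iff]
        have e2 : 1 ≤ (cnt lev kind (d + 1) Cls.Bn) T ↔ ∃ b ∈ T, kind b = Kind.bin ∧ lev b = (d + 1) := by
          unfold cnt
          rw [Nat.succ_le_iff, List.countP_pos_iff]
          constructor
          · rintro ⟨b, hb, h⟩
            refine ⟨b, hb, ?_⟩
            rw [← cls_Bn_iff]
            simpa using h
          · rintro ⟨b, hb, h⟩
            refine ⟨b, hb, ?_⟩
            have : cls lev kind (d + 1) b = Cls.Bn := (cls_Bn_iff lev kind (d + 1) b).mpr h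
            simpa using this
        rw [e1, e2]
      rw [hcongr] at hsum
      have h4all := sum_four triples (cnt lev kind (d + 1) Cls.O) (cnt lev kind (d + 1) Cls.Bn) (cnt lev kind (d + 1) Cls.A) (cnt lev kind (d + 1) Cls.L) h4
      omega

/-- **Counting theorem for levelled triple systems.**  Under (A1), (A2), (A3) every family of
triples leaves at least `c + 3` items uncovered. -/
theorem core (B : ℕ → ℕ) (c d : ℕ) (items : Multiset α) (triples : List (List α))
    (hsub : ((triples.flatten : List α) : Multiset α) ≤ items)
    (hlen : ∀ T ∈ triples, T.length = 3)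
    (hlev : ∀ i ∈ items, lev i ≤ d)
    (h0 : Multiset.card (items.filter (fun i => lev i = 0)) = c + 3)
    (hbin : ∀ l, 1 ≤ l → l ≤ d →
      Multiset.card (items.filter (fun i => lev i = l ∧ kind i = Kind.bin)) = B l)
    (hobj : ∀ l, 1 ≤ l → l ≤ d →
      Multiset.card (items.filter (fun i => lev i = l ∧ kind i = Kind.obj)) = 2 * B l + 1)
    (habs : ∀ l, 1 ≤ l → l ≤ d →
      Multiset.card (items.filter (fun i => lev i = l ∧ kind i = Kind.abs)) = 2)
    (hkind : ∀ i ∈ items, 1 ≤ lev i → kind i ≠ Kind.unit)
    (hA1 : ∀ T ∈ triples, ∃ i ∈ T, 1 ≤ lev i)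
    (hA2 : ∀ T ∈ triples, ∀ o ∈ T, kind o = Kind.obj → (∀ i ∈ T, lev i ≤ lev o) →
        (∃ b ∈ T, kind b = Kind.bin ∧ lev b = lev o) ∨
        T.countP (fun i => decide (kind i = Kind.abs ∧ lev i = lev o)) = 2)
    (hA3 : ∀ l, 1 ≤ l → l ≤ d → triples.countP (fun T =>
        decide (T.countP (fun i => decide (kind i = Kind.obj ∧ lev i = l)) = 2 ∧
          ∃ b ∈ T, kind b = Kind.bin ∧ lev b = l)) + c ≤ B l) :
    3 * triples.length + (c + 3) ≤ Multiset.card items :=
  (core_aux lev kind B c d items triples hsub hlen hlev h0 hbin hobj habs hkind hA1 hA2 hA3).2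

end core

end Vale.Agent.H5.BinPack
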