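import Mathlib
import Vale.Agent.H5.BinPack.Core

/-!
# The chain instances (support for P302)

Typed items `(lev, kind, val)` with deviation `lam ^ lev * val`; a chain instance consists of
`c + 3` unit items on level `0` and, on every level `l ≥ 1`, the bins, objects and two absorbers
of a gadget.  `chain_deficient`: every family of triples with nonpositive deviation sums leaves
at least `c + 3` items uncovered.
-/

namespace Vale.Agent.H5.BinPack

/-- A typed item: level, kind and value. -/
structure Item where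
  lev : ℕ
  kind : Kind
  val : ℤ
  deriving DecidableEq

/-- The deviation of an item at scale `lam`. -/
def dev (lam : ℤ) (it : Item) : ℤ := lam ^ it.lev * it.val

/-- A level gadget: bin capacities, object values and the absorber value. -/
structure Gadget where
  bins : List ℤ
  objs : List ℤ
  p : ℤ

/-- The items of a gadget placed on level `l`: bins `-t`, objects `o`, two absorbers `-p`. -/
def levelItems (l : ℕ) (g : Gadget) : List Item :=
  g.bins.map (fun t => (⟨l, Kind.bin, -t⟩ : Item)) ++
    (g.objs.map (fun o => (⟨l, Kind.obj, o⟩ : Item)) ++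
      [⟨l, Kind.abs, -g.p⟩, ⟨l, Kind.abs, -g.p⟩])

/-- The gadgets placed on levels `l + 1, l + 2, ...`. -/
def gadgetItems : ℕ → List Gadget → List Item
  | _, [] => []
  | l, g :: gs => levelItems (l + 1) g ++ gadgetItems (l + 1) gs

/-- The chain instance: `c + 3` units on level `0`, then the gadgets on levels `1, 2, ...`. -/
def chainItems (c : ℕ) (gs : List Gadget) : List Item :=
  List.replicate (c + 3) (⟨0, Kind.unit, 1⟩ : Item) ++ gadgetItems 0 gs

lemma mem_levelItems {l : ℕ} {g : Gadget} {i : Item} :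
    i ∈ levelItems l g ↔ (∃ t ∈ g.bins, i = ⟨l, Kind.bin, -t⟩) ∨
      (∃ o ∈ g.objs, i = ⟨l, Kind.obj, o⟩) ∨ i = ⟨l, Kind.abs, -g.p⟩ := by
  unfold levelItems
  simp only [List.mem_append, List.mem_map, List.mem_cons, List.not_mem_nil, or_false, or_self]
  constructor
  · rintro (⟨t, ht, rfl⟩ | ⟨o, ho, rfl⟩ | rfl)
    · exact Or.inl ⟨t, ht, rfl⟩
    · exact Or.inr (Or.inl ⟨o, ho, rfl⟩)
    · exact Or.inr (Or.inr rfl)
  · rintro (⟨t, ht, rfl⟩ | ⟨o, ho, rfl⟩ | rfl)
    · exact Or.inl ⟨t, ht, rfl⟩
    · exact Or.inr (Or.inl ⟨o, ho, rfl⟩)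
    · exact Or.inr (Or.inr rfl)

lemma lev_of_mem_levelItems {l : ℕ} {g : Gadget} {i : Item} (h : i ∈ levelItems l g) :
    i.lev = l := by
  rcases mem_levelItems.mp h with ⟨t, _, rfl⟩ | ⟨o, _, rfl⟩ | rfl <;> rfl

lemma lev_gadgetItems {i : Item} : ∀ (l0 : ℕ) (gs : List Gadget), i ∈ gadgetItems l0 gs →
    l0 < i.lev ∧ i.lev ≤ l0 + gs.length := by
  intro l0 gs
  induction gs generalizing l0 with
  | nil => intro h; simp [gadgetItems] at h
  | cons g gs ih =>
    intro h
    simp only [gadgetItems, List.mem_append] at h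
    rcases h with h | h
    · have := lev_of_mem_levelItems h
      simp only [List.length_cons]
      omega
    · have := ih (l0 + 1) h
      simp only [List.length_cons]
      omega

lemma level_spec (l : ℕ) : ∀ (l0 : ℕ) (gs : List Gadget), l0 < l → l ≤ l0 + gs.length →
    ∃ g ∈ gs, (gadgetItems l0 gs).filter (fun i => decide (i.lev = l)) = levelItems l g := by
  intro l0 gs
  induction gs generalizing l0 with
  | nil => intro h1 h2; simp at h2; omega
  | cons g gs ih =>
    intro h1 h2
    simp only [gadgetItems, List.filter_append]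
    by_cases hl : l = l0 + 1
    · refine ⟨g, List.mem_cons_self, ?_⟩
      have e1 : (levelItems (l0 + 1) g).filter (fun i => decide (i.lev = l)) = levelItems l g := by
        rw [← hl]
        apply List.filter_eq_self.mpr
        intro a ha
        simpa using lev_of_mem_levelItems ha
      have e2 : (gadgetItems (l0 + 1) gs).filter (fun i => decide (i.lev = l)) = [] := by
        apply List.filter_eq_nil_iff.mpr
        intro a ha
        have := (lev_gadgetItems (l0 + 1) gs ha).1
        simp only [decide_eq_true_eq]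
        omega
      rw [e1, e2, List.append_nil]
    · obtain ⟨g', hg', hfil⟩ := ih (l0 + 1) (by omega) (by simp only [List.length_cons] at h2; omega)
      refine ⟨g', List.mem_cons_of_mem _ hg', ?_⟩
      have e1 : (levelItems (l0 + 1) g).filter (fun i => decide (i.lev = l)) = [] := by
        apply List.filter_eq_nil_iff.mpr
        intro a ha
        have := lev_of_mem_levelItems ha
        simp only [decide_eq_true_eq]
        omega
      rw [e1, List.nil_append, hfil]

lemma chain_level (c : ℕ) (gs : List Gadget) (l : ℕ) (h1 : 1 ≤ l) (h2 : l ≤ gs.length) :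
    ∃ g ∈ gs, (chainItems c gs).filter (fun i => decide (i.lev = l)) = levelItems l g := by
  obtain ⟨g, hg, hfil⟩ := level_spec l 0 gs (by omega) (by omega)
  refine ⟨g, hg, ?_⟩
  unfold chainItems
  rw [List.filter_append, hfil]
  have e : (List.replicate (c + 3) (⟨0, Kind.unit, 1⟩ : Item)).filter
      (fun i => decide (i.lev = l)) = [] := by
    apply List.filter_eq_nil_iff.mpr
    intro a ha
    have := List.eq_of_mem_replicate ha
    subst this
    simp only [decide_eq_true_eq]
    omega
  rw [e, List.nil_append]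

lemma chain_level0 (c : ℕ) (gs : List Gadget) :
    (chainItems c gs).filter (fun i => decide (i.lev = 0))
      = List.replicate (c + 3) (⟨0, Kind.unit, 1⟩ : Item) := by
  unfold chainItems
  rw [List.filter_append]
  have e1 : (List.replicate (c + 3) (⟨0, Kind.unit, 1⟩ : Item)).filter
      (fun i => decide (i.lev = 0)) = List.replicate (c + 3) (⟨0, Kind.unit, 1⟩ : Item) := by
    apply List.filter_eq_self.mpr
    intro a ha
    have := List.eq_of_mem_replicate ha
    subst this
    simp
  have e2 : (gadgetItems 0 gs).filter (fun i => decide (i.lev = 0)) = [] := by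
    apply List.filter_eq_nil_iff.mpr
    intro a ha
    have := (lev_gadgetItems 0 gs ha).1
    simp only [decide_eq_true_eq]
    omega
  rw [e1, e2, List.append_nil]

lemma chain_lev_le (c : ℕ) (gs : List Gadget) {i : Item} (h : i ∈ chainItems c gs) :
    i.lev ≤ gs.length := by
  unfold chainItems at h
  rcases List.mem_append.mp h with h | h
  · have := List.eq_of_mem_replicate h
    subst this
    exact Nat.zero_le _
  · have := (lev_gadgetItems 0 gs h).2
    omega


lemma chain_level0_item (c : ℕ) (gs : List Gadget) {i : Item} (h : i ∈ chainItems c gs)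
    (h0 : i.lev = 0) : i = ⟨0, Kind.unit, 1⟩ := by
  have : i ∈ (chainItems c gs).filter (fun i => decide (i.lev = 0)) :=
    List.mem_filter.mpr ⟨h, by simpa using h0⟩
  rw [chain_level0] at this
  exact List.eq_of_mem_replicate this

lemma mem_gadgetItems_exists {i : Item} : ∀ (l0 : ℕ) (gs : List Gadget), i ∈ gadgetItems l0 gs →
    ∃ g ∈ gs, ∃ l, i ∈ levelItems l g := by
  intro l0 gs
  induction gs generalizing l0 with
  | nil => intro h; simp [gadgetItems] at h
  | cons g gs ih =>
    intro h
    simp only [gadgetItems, List.mem_append] at h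
    rcases h with h | h
    · exact ⟨g, List.mem_cons_self, _, h⟩
    · obtain ⟨g', hg', l, hl⟩ := ih (l0 + 1) h
      exact ⟨g', List.mem_cons_of_mem _ hg', l, hl⟩

/-- The pair-into-bins bound of a gadget: at most `k` disjoint fitting pairs in distinct bins. -/
def PairBound (bins objs : List ℤ) (k : ℕ) : Prop :=
  ∀ F : List (ℤ × ℤ × ℤ), ((F.map (fun t => t.1) : List ℤ) : Multiset ℤ) ≤ (bins : Multiset ℤ) →
    ((F.flatMap (fun t => [t.2.1, t.2.2]) : List ℤ) : Multiset ℤ) ≤ (objs : Multiset ℤ) →
    (∀ t ∈ F, t.2.1 + t.2.2 ≤ t.1) → F.length ≤ k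

/-- The numerical conditions on a gadget used for the integral bound. -/
def GadgetOK (V : ℤ) (c : ℕ) (g : Gadget) : Prop :=
  (∀ t ∈ g.bins, 0 < t ∧ t ≤ V) ∧ (∀ o ∈ g.objs, g.p < o ∧ o ≤ V) ∧ 0 < g.p ∧
    g.objs.length = 2 * g.bins.length + 1 ∧ c ≤ g.bins.length ∧
    PairBound g.bins g.objs (g.bins.length - c)

lemma GadgetOK.p_le {V : ℤ} {c : ℕ} {g : Gadget} (h : GadgetOK V c g) : g.p ≤ V := by
  obtain ⟨_, ho, _, hlen, _, _⟩ := h
  have hne : g.objs ≠ [] := by
    intro hnil
    rw [hnil] at hlen
    simp at hlen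
  obtain ⟨o, ho'⟩ := List.exists_mem_of_ne_nil _ hne
  have := ho o ho'
  omega

lemma chain_val_le (V : ℤ) (c : ℕ) (gs : List Gadget) (hV : 1 ≤ V)
    (hg : ∀ g ∈ gs, GadgetOK V c g) {i : Item} (h : i ∈ chainItems c gs) : |i.val| ≤ V := by
  unfold chainItems at h
  rcases List.mem_append.mp h with h | h
  · have := List.eq_of_mem_replicate h
    subst this
    simpa using hV
  · obtain ⟨g, hgs, l, hl⟩ := mem_gadgetItems_exists 0 gs h
    have hok := hg g hgs
    have hp := hok.p_le
    obtain ⟨hb, ho, hp0, _, _, _⟩ := hok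
    rcases mem_levelItems.mp hl with ⟨t, ht, rfl⟩ | ⟨o, ho', rfl⟩ | rfl
    · have := hb t ht
      simp only [abs_neg]
      rw [abs_of_pos this.1]
      exact this.2
    · have := ho o ho'
      show |o| ≤ V
      rw [abs_of_pos (by omega)]
      exact this.2
    · simp only [abs_neg]
      rw [abs_of_pos hp0]
      exact hp

/-- Lower items are negligible: an item of level `≤ k` has deviation at least `-V * lam ^ k`. -/
lemma dev_lower_bound (lam V : ℤ) (hV : 1 ≤ V) (hlam : 2 * V < lam) (i : Item)
    (hval : |i.val| ≤ V) (k : ℕ) (hk : i.lev ≤ k) : -(V * lam ^ k) ≤ dev lam i := by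
  unfold dev
  have hlam1 : (1 : ℤ) ≤ lam := by omega
  have hpow : lam ^ i.lev ≤ lam ^ k := pow_le_pow_right₀ hlam1 hk
  have hpos : 0 < lam ^ i.lev := by positivity
  have hv : -V ≤ i.val := neg_le_of_abs_le hval
  nlinarith [mul_le_mul_of_nonneg_left hv hpos.le, mul_le_mul_of_nonneg_right hpow (by omega : (0:ℤ) ≤ V)]


lemma chain_A1 (lam : ℤ) (c : ℕ) (gs : List Gadget) (T : List Item)
    (hT : ∀ i ∈ T, i ∈ chainItems c gs) (hlen : T.length = 3)
    (hfit : (T.map (dev lam)).sum ≤ 0) : ∃ i ∈ T, 1 ≤ i.lev := by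
  by_contra hcon
  simp only [not_exists, not_and, not_le] at hcon
  have hall : ∀ i ∈ T, i = ⟨0, Kind.unit, 1⟩ := fun i hi =>
    chain_level0_item c gs (hT i hi) (by have := hcon i hi; omega)
  have hdev : ∀ i ∈ T, dev lam i = 1 := by
    intro i hi
    rw [hall i hi]
    simp [dev]
  have hsum : (T.map (dev lam)).sum = 3 := by
    rw [List.map_congr_left hdev]
    simp [hlen]
  omega

lemma item_bounds (lam V : ℤ) (c : ℕ) (gs : List Gadget) (hV : 1 ≤ V) (hlam : 2 * V < lam)
    (hg : ∀ g ∈ gs, GadgetOK V c g) (k : ℕ) (g : Gadget) (hgs : g ∈ gs)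
    (hfil : (chainItems c gs).filter (fun i => decide (i.lev = k + 1)) = levelItems (k + 1) g)
    (i : Item) (hi : i ∈ chainItems c gs) (hle : i.lev ≤ k + 1)
    (hnb : ¬ (i.kind = Kind.bin ∧ i.lev = k + 1)) :
    -(g.p * lam ^ (k + 1)) ≤ dev lam i ∧
      (¬ (i.kind = Kind.abs ∧ i.lev = k + 1) → -(V * lam ^ k) ≤ dev lam i) := by
  have hok := hg g hgs
  obtain ⟨hb, ho, hp0, _, _, _⟩ := hok
  have hlam0 : (0 : ℤ) < lam := by omega
  have hpk : 0 < lam ^ k := by positivity
  have hpk1 : 0 < lam ^ (k + 1) := by positivity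
  by_cases hl : i.lev = k + 1
  · have him : i ∈ levelItems (k + 1) g := by
      rw [← hfil]
      exact List.mem_filter.mpr ⟨hi, by simpa using hl⟩
    rcases mem_levelItems.mp him with ⟨t, ht, rfl⟩ | ⟨v, hv, rfl⟩ | rfl
    · exact absurd ⟨rfl, rfl⟩ hnb
    · have hv' := ho v hv
      have h1 : 0 < lam ^ (k + 1) * v := mul_pos hpk1 (by omega)
      have h2 : 0 ≤ g.p * lam ^ (k + 1) := mul_nonneg hp0.le hpk1.le
      have h3 : 0 ≤ V * lam ^ k := mul_nonneg (by omega) hpk.le
      constructor
      · show -(g.p * lam ^ (k + 1)) ≤ lam ^ (k + 1) * v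
        linarith
      · intro _
        show -(V * lam ^ k) ≤ lam ^ (k + 1) * v
        linarith
    · constructor
      · show -(g.p * lam ^ (k + 1)) ≤ lam ^ (k + 1) * (-g.p)
        exact le_of_eq (by ring)
      · intro h
        exact absurd ⟨rfl, rfl⟩ h
  · have hk : i.lev ≤ k := by omega
    have hbnd := dev_lower_bound lam V hV hlam i (chain_val_le V c gs hV hg hi) k hk
    refine ⟨?_, fun _ => hbnd⟩
    have h1 : V * lam ^ k ≤ g.p * lam ^ (k + 1) := by
      rw [pow_succ]
      have h2 : V * lam ^ k ≤ g.p * lam * lam ^ k := by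
        apply mul_le_mul_of_nonneg_right _ hpk.le
        nlinarith
      linarith
    linarith

lemma chain_A2 (lam V : ℤ) (c : ℕ) (gs : List Gadget) (hV : 1 ≤ V) (hlam : 2 * V < lam)
    (hg : ∀ g ∈ gs, GadgetOK V c g) (T : List Item) (hT : ∀ i ∈ T, i ∈ chainItems c gs)
    (hlen : T.length = 3) (hfit : (T.map (dev lam)).sum ≤ 0)
    (o : Item) (ho : o ∈ T) (hk : o.kind = Kind.obj) (hle : ∀ i ∈ T, i.lev ≤ o.lev) :
    (∃ b ∈ T, b.kind = Kind.bin ∧ b.lev = o.lev) ∨
      T.countP (fun i => decide (i.kind = Kind.abs ∧ i.lev = o.lev)) = 2 := by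
  by_cases hbin : ∃ b ∈ T, b.kind = Kind.bin ∧ b.lev = o.lev
  · exact Or.inl hbin
  right
  have hlev1 : 1 ≤ o.lev := by
    by_contra h0
    have := chain_level0_item c gs (hT o ho) (by omega)
    rw [this] at hk
    exact absurd hk (by decide)
  obtain ⟨k, hk1⟩ : ∃ k, o.lev = k + 1 := ⟨o.lev - 1, by omega⟩
  rw [hk1] at hle hbin ⊢
  obtain ⟨g, hgs, hfil⟩ := chain_level c gs (k + 1) (by omega)
    (by have := chain_lev_le c gs (hT o ho); omega)
  have hok := hg g hgs
  have hlam0 : (0 : ℤ) < lam := by omega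
  have hpk : 0 < lam ^ k := by positivity
  have hpk1 : 0 < lam ^ (k + 1) := by positivity
  -- the object
  have hdevo : (g.p + 1) * lam ^ (k + 1) ≤ dev lam o := by
    have him : o ∈ levelItems (k + 1) g := by
      rw [← hfil]
      exact List.mem_filter.mpr ⟨hT o ho, by simpa using hk1⟩
    rcases mem_levelItems.mp him with ⟨t, ht, rfl⟩ | ⟨v, hv, rfl⟩ | rfl
    · exact absurd hk (by simp)
    · have hv' := hok.2.1 v hv
      show (g.p + 1) * lam ^ (k + 1) ≤ lam ^ (k + 1) * v
      nlinarith
    · exact absurd hk (by simp)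
  -- the other two items
  have hperm : T.Perm (o :: T.erase o) := List.perm_cons_erase ho
  have hlen2 : (T.erase o).length = 2 := by
    rw [List.length_erase_of_mem ho, hlen]
  obtain ⟨y, z, hyz⟩ := List.length_eq_two.mp hlen2
  rw [hyz] at hperm
  have hy : y ∈ T := hperm.mem_iff.mpr (by simp)
  have hz : z ∈ T := hperm.mem_iff.mpr (by simp)
  have hnb : ∀ i ∈ T, ¬ (i.kind = Kind.bin ∧ i.lev = k + 1) := fun i hi h => hbin ⟨i, hi, h⟩
  have hby := item_bounds lam V c gs hV hlam hg k g hgs hfil y (hT y hy) (hle y hy) (hnb y hy)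
  have hbz := item_bounds lam V c gs hV hlam hg k g hgs hfil z (hT z hz) (hle z hz) (hnb z hz)
  have hsum : dev lam o + (dev lam y + dev lam z) ≤ 0 := by
    have := (hperm.map (dev lam)).sum_eq
    simp only [List.map_cons, List.map_nil, List.sum_cons, List.sum_nil, add_zero] at this
    linarith
  have hVk : V * lam ^ k < lam ^ (k + 1) := by
    rw [pow_succ]
    nlinarith
  rw [hperm.countP_eq]
  have hoabs : ¬ (o.kind = Kind.abs ∧ o.lev = k + 1) := by
    rw [hk]
    exact fun h => absurd h.1 (by decide)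
  by_cases hya : y.kind = Kind.abs ∧ y.lev = k + 1
  · by_cases hza : z.kind = Kind.abs ∧ z.lev = k + 1
    · simp [hoabs, hya, hza]
    · exfalso
      have h1 := hbz.2 hza
      have h2 := hby.1
      nlinarith
  · exfalso
    have h1 := hby.2 hya
    have h2 := hbz.1
    nlinarith


lemma filter_bin_level (l : ℕ) (g : Gadget) :
    (levelItems l g).filter (fun i => decide (i.kind = Kind.bin))
      = g.bins.map (fun t => (⟨l, Kind.bin, -t⟩ : Item)) := by
  unfold levelItems
  rw [List.filter_append, List.filter_append]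
  have e1 : (g.bins.map (fun t => (⟨l, Kind.bin, -t⟩ : Item))).filter
      (fun i => decide (i.kind = Kind.bin)) = g.bins.map (fun t => (⟨l, Kind.bin, -t⟩ : Item)) := by
    apply List.filter_eq_self.mpr
    intro a ha
    obtain ⟨t, _, rfl⟩ := List.mem_map.mp ha
    simp
  have e2 : (g.objs.map (fun o => (⟨l, Kind.obj, o⟩ : Item))).filter
      (fun i => decide (i.kind = Kind.bin)) = [] := by
    apply List.filter_eq_nil_iff.mpr
    intro a ha
    obtain ⟨t, _, rfl⟩ := List.mem_map.mp ha
    simp
  rw [e1, e2]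
  simp

lemma filter_obj_level (l : ℕ) (g : Gadget) :
    (levelItems l g).filter (fun i => decide (i.kind = Kind.obj))
      = g.objs.map (fun o => (⟨l, Kind.obj, o⟩ : Item)) := by
  unfold levelItems
  rw [List.filter_append, List.filter_append]
  have e1 : (g.bins.map (fun t => (⟨l, Kind.bin, -t⟩ : Item))).filter
      (fun i => decide (i.kind = Kind.obj)) = [] := by
    apply List.filter_eq_nil_iff.mpr
    intro a ha
    obtain ⟨t, _, rfl⟩ := List.mem_map.mp ha
    simp
  have e2 : (g.objs.map (fun o => (⟨l, Kind.obj, o⟩ : Item))).filter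
      (fun i => decide (i.kind = Kind.obj)) = g.objs.map (fun o => (⟨l, Kind.obj, o⟩ : Item)) := by
    apply List.filter_eq_self.mpr
    intro a ha
    obtain ⟨t, _, rfl⟩ := List.mem_map.mp ha
    simp
  rw [e1, e2]
  simp

lemma filter_abs_level (l : ℕ) (g : Gadget) :
    (levelItems l g).filter (fun i => decide (i.kind = Kind.abs))
      = [(⟨l, Kind.abs, -g.p⟩ : Item), ⟨l, Kind.abs, -g.p⟩] := by
  unfold levelItems
  rw [List.filter_append, List.filter_append]
  have e1 : (g.bins.map (fun t => (⟨l, Kind.bin, -t⟩ : Item))).filter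
      (fun i => decide (i.kind = Kind.abs)) = [] := by
    apply List.filter_eq_nil_iff.mpr
    intro a ha
    obtain ⟨t, _, rfl⟩ := List.mem_map.mp ha
    simp
  have e2 : (g.objs.map (fun o => (⟨l, Kind.obj, o⟩ : Item))).filter
      (fun i => decide (i.kind = Kind.abs)) = [] := by
    apply List.filter_eq_nil_iff.mpr
    intro a ha
    obtain ⟨t, _, rfl⟩ := List.mem_map.mp ha
    simp
  rw [e1, e2]
  simp

/-- Filtering a list by level and kind, in terms of the level part. -/
lemma filter_lev_kind (L : List Item) (l : ℕ) (K : Kind) :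
    L.filter (fun i => decide (i.lev = l ∧ i.kind = K))
      = (L.filter (fun i => decide (i.lev = l))).filter (fun i => decide (i.kind = K)) := by
  rw [List.filter_filter]
  congr 1
  funext a
  rw [Bool.decide_and]
  exact Bool.and_comm _ _

lemma filter_kind_lev (L : List Item) (l : ℕ) (K : Kind) :
    L.filter (fun i => decide (i.kind = K ∧ i.lev = l))
      = (L.filter (fun i => decide (i.lev = l))).filter (fun i => decide (i.kind = K)) := by
  rw [List.filter_filter]
  congr 1
  funext a
  rw [Bool.decide_and]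


/-- The triple `(capacity, object, object)` read off a list consisting of one bin and two
objects of level `l`. -/
def trOf (l : ℕ) (T : List Item) : ℤ × ℤ × ℤ :=
  match T.filter (fun i => decide (i.kind = Kind.bin ∧ i.lev = l)),
      T.filter (fun i => decide (i.kind = Kind.obj ∧ i.lev = l)) with
  | b :: _, o1 :: o2 :: _ => (-b.val, o1.val, o2.val)
  | _, _ => (0, 0, 0)

lemma trOf_eq (l : ℕ) (T : List Item) (b o1 o2 : Item)
    (hb : T.filter (fun i => decide (i.kind = Kind.bin ∧ i.lev = l)) = [b])
    (ho : T.filter (fun i => decide (i.kind = Kind.obj ∧ i.lev = l)) = [o1, o2]) :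
    trOf l T = (-b.val, o1.val, o2.val) := by
  unfold trOf
  rw [hb, ho]

lemma triple_shape (lam : ℤ) (hlam0 : 0 < lam) (c : ℕ) (gs : List Gadget) (l : ℕ) (g : Gadget)
    (hfil : (chainItems c gs).filter (fun i => decide (i.lev = l)) = levelItems l g)
    (T : List Item) (hT : ∀ i ∈ T, i ∈ chainItems c gs) (hlen : T.length = 3)
    (hfit : (T.map (dev lam)).sum ≤ 0)
    (hcnt : T.countP (fun i => decide (i.kind = Kind.obj ∧ i.lev = l)) = 2)
    (hb : ∃ b ∈ T, b.kind = Kind.bin ∧ b.lev = l) :
    ∃ t v1 v2 : ℤ,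
      T.filter (fun i => decide (i.kind = Kind.bin ∧ i.lev = l)) = [⟨l, Kind.bin, -t⟩] ∧
      T.filter (fun i => decide (i.kind = Kind.obj ∧ i.lev = l))
        = [⟨l, Kind.obj, v1⟩, ⟨l, Kind.obj, v2⟩] ∧
      v1 + v2 ≤ t := by
  have hOlen : (T.filter (fun i => decide (i.kind = Kind.obj ∧ i.lev = l))).length = 2 := by
    rw [← List.countP_eq_length_filter]
    exact hcnt
  obtain ⟨o1, o2, hO⟩ := List.length_eq_two.mp hOlen
  have hshape : ∀ i ∈ T, i.lev = l → i ∈ levelItems l g := fun i hi hl => by
    rw [← hfil]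
    exact List.mem_filter.mpr ⟨hT i hi, by simpa using hl⟩
  have ho1 : o1 ∈ T.filter (fun i => decide (i.kind = Kind.obj ∧ i.lev = l)) := by
    rw [hO]; simp
  have ho2 : o2 ∈ T.filter (fun i => decide (i.kind = Kind.obj ∧ i.lev = l)) := by
    rw [hO]; simp
  obtain ⟨ho1T, ho1p⟩ := List.mem_filter.mp ho1
  obtain ⟨ho2T, ho2p⟩ := List.mem_filter.mp ho2
  simp only [decide_eq_true_eq] at ho1p ho2p
  obtain ⟨v1, rfl⟩ : ∃ v1, o1 = ⟨l, Kind.obj, v1⟩ := by
    rcases mem_levelItems.mp (hshape o1 ho1T ho1p.2) with ⟨t, _, rfl⟩ | ⟨v, _, rfl⟩ | rfl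
    · exact absurd ho1p.1 (by simp)
    · exact ⟨v, rfl⟩
    · exact absurd ho1p.1 (by simp)
  obtain ⟨v2, rfl⟩ : ∃ v2, o2 = ⟨l, Kind.obj, v2⟩ := by
    rcases mem_levelItems.mp (hshape o2 ho2T ho2p.2) with ⟨t, _, rfl⟩ | ⟨v, _, rfl⟩ | rfl
    · exact absurd ho2p.1 (by simp)
    · exact ⟨v, rfl⟩
    · exact absurd ho2p.1 (by simp)
  have hperm : (T.filter (fun i => decide (i.kind = Kind.obj ∧ i.lev = l)) ++
      T.filter (fun x => !decide (x.kind = Kind.obj ∧ x.lev = l))).Perm T :=
    List.filter_append_perm _ _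
  have hNlen : (T.filter (fun x => !decide (x.kind = Kind.obj ∧ x.lev = l))).length = 1 := by
    have := hperm.length_eq
    rw [List.length_append, hOlen, hlen] at this
    omega
  obtain ⟨x, hx⟩ := List.length_eq_one_iff.mp hNlen
  obtain ⟨b, hbT, hbk, hbl⟩ := hb
  have hbx : b = x := by
    have : b ∈ T.filter (fun x => !decide (x.kind = Kind.obj ∧ x.lev = l)) :=
      List.mem_filter.mpr ⟨hbT, by simp [hbk]⟩
    rw [hx] at this
    simpa using this
  subst hbx
  obtain ⟨t, rfl⟩ : ∃ t, b = ⟨l, Kind.bin, -t⟩ := by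
    rcases mem_levelItems.mp (hshape b hbT hbl) with ⟨t, _, rfl⟩ | ⟨v, _, rfl⟩ | rfl
    · exact ⟨t, rfl⟩
    · exact absurd hbk (by simp)
    · exact absurd hbk (by simp)
  have hp2 : T.Perm ([(⟨l, Kind.obj, v1⟩ : Item), ⟨l, Kind.obj, v2⟩] ++ [⟨l, Kind.bin, -t⟩]) := by
    rw [← hO, ← hx]
    exact hperm.symm
  have hBfil : T.filter (fun i => decide (i.kind = Kind.bin ∧ i.lev = l))
      = [⟨l, Kind.bin, -t⟩] := by
    have := hp2.filter (fun i => decide (i.kind = Kind.bin ∧ i.lev = l))
    simpa using this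
  refine ⟨t, v1, v2, hBfil, hO, ?_⟩
  have hsum := (hp2.map (dev lam)).sum_eq
  simp [dev] at hsum
  have hpos : 0 < lam ^ l := by positivity
  by_contra hcon
  simp only [not_le] at hcon
  nlinarith

lemma flat_single {α β : Type*} (S : List α) (f : α → List β) (h : α → β)
    (H : ∀ T ∈ S, f T = [h T]) : (S.map f).flatten = S.map h := by
  induction S with
  | nil => rfl
  | cons a S ih =>
    simp only [List.map_cons, List.flatten_cons]
    rw [H a List.mem_cons_self, ih (fun T hT => H T (List.mem_cons_of_mem _ hT))]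
    rfl

lemma flat_pair {α β : Type*} (S : List α) (f : α → List β) (h1 h2 : α → β)
    (H : ∀ T ∈ S, f T = [h1 T, h2 T]) :
    (S.map f).flatten = S.flatMap (fun T => [h1 T, h2 T]) := by
  induction S with
  | nil => rfl
  | cons a S ih =>
    simp only [List.map_cons, List.flatten_cons, List.flatMap_cons]
    rw [H a List.mem_cons_self, ih (fun T hT => H T (List.mem_cons_of_mem _ hT))]


lemma chain_A3 (lam V : ℤ) (c : ℕ) (gs : List Gadget) (hV : 1 ≤ V) (hlam : 2 * V < lam)
    (hg : ∀ g ∈ gs, GadgetOK V c g) (triples : List (List Item))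
    (hsub : ((triples.flatten : List Item) : Multiset Item) ≤ (chainItems c gs : Multiset Item))
    (hlen : ∀ T ∈ triples, T.length = 3)
    (hfit : ∀ T ∈ triples, (T.map (dev lam)).sum ≤ 0)
    (l : ℕ) (h1 : 1 ≤ l) (h2 : l ≤ gs.length) :
    triples.countP (fun T =>
        decide (T.countP (fun i => decide (i.kind = Kind.obj ∧ i.lev = l)) = 2 ∧
          ∃ b ∈ T, b.kind = Kind.bin ∧ b.lev = l)) + c
      ≤ ((chainItems c gs).filter (fun i => decide (i.lev = l ∧ i.kind = Kind.bin))).length := by
  obtain ⟨g, hgs, hfil⟩ := chain_level c gs l h1 h2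
  obtain ⟨_, _, _, _, hcB, hPB⟩ := hg g hgs
  have hlam0 : (0 : ℤ) < lam := by omega
  have hB : ((chainItems c gs).filter (fun i => decide (i.lev = l ∧ i.kind = Kind.bin))).length
      = g.bins.length := by
    rw [filter_lev_kind, hfil, filter_bin_level, List.length_map]
  rw [hB, List.countP_eq_length_filter]
  generalize hS : triples.filter (fun T =>
        decide (T.countP (fun i => decide (i.kind = Kind.obj ∧ i.lev = l)) = 2 ∧
          ∃ b ∈ T, b.kind = Kind.bin ∧ b.lev = l)) = S
  have hSsub : S.Sublist triples := by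
    rw [← hS]
    exact List.filter_sublist
  have hSmem : ∀ T ∈ S, T.countP (fun i => decide (i.kind = Kind.obj ∧ i.lev = l)) = 2 ∧
      ∃ b ∈ T, b.kind = Kind.bin ∧ b.lev = l := by
    intro T hT
    rw [← hS] at hT
    have := (List.mem_filter.mp hT).2
    simpa using this
  have hmem : ∀ T ∈ triples, ∀ i ∈ T, i ∈ chainItems c gs := fun T hT i hi => by
    have : i ∈ ((triples.flatten : List Item) : Multiset Item) := by
      simp only [Multiset.mem_coe, List.mem_flatten]
      exact ⟨T, hT, hi⟩
    exact Multiset.mem_coe.mp (Multiset.mem_of_le hsub this)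
  have hshape : ∀ T ∈ S, ∃ t v1 v2 : ℤ,
      T.filter (fun i => decide (i.kind = Kind.bin ∧ i.lev = l)) = [⟨l, Kind.bin, -t⟩] ∧
      T.filter (fun i => decide (i.kind = Kind.obj ∧ i.lev = l))
        = [⟨l, Kind.obj, v1⟩, ⟨l, Kind.obj, v2⟩] ∧
      v1 + v2 ≤ t := fun T hT =>
    triple_shape lam hlam0 c gs l g hfil T (hmem T (hSsub.subset hT)) (hlen T (hSsub.subset hT))
      (hfit T (hSsub.subset hT)) (hSmem T hT).1 (hSmem T hT).2
  have hSle : ((S.flatten : List Item) : Multiset Item) ≤ (chainItems c gs : Multiset Item) :=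
    le_trans (Multiset.coe_le.mpr hSsub.flatten.subperm) hsub
  have hF := hPB (S.map (trOf l)) ?_ ?_ ?_
  · rw [List.length_map] at hF
    omega
  · -- the bins
    have e : (S.map (trOf l)).map (fun t => t.1)
        = ((S.flatten).filter (fun i => decide (i.kind = Kind.bin ∧ i.lev = l))).map
            (fun i => -i.val) := by
      rw [List.filter_flatten, List.map_flatten, List.map_map, List.map_map]
      symm
      apply flat_single
      intro T hT
      obtain ⟨t, v1, v2, hb, ho, _⟩ := hshape T hT
      simp only [Function.comp_apply]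
      rw [trOf_eq l T _ _ _ hb ho, hb]
      simp
    rw [e]
    have h2' := Multiset.filter_le_filter (fun i : Item => i.kind = Kind.bin ∧ i.lev = l) hSle
    rw [Multiset.filter_coe, Multiset.filter_coe] at h2'
    have h3 := Multiset.map_le_map (f := fun i : Item => -i.val) h2'
    rw [Multiset.map_coe, Multiset.map_coe, filter_kind_lev (chainItems c gs) l Kind.bin, hfil,
      filter_bin_level, List.map_map] at h3
    have e2 : List.map ((fun i : Item => -i.val) ∘ fun t => (⟨l, Kind.bin, -t⟩ : Item)) g.bins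
        = g.bins := by
      have : ((fun i : Item => -i.val) ∘ fun t => (⟨l, Kind.bin, -t⟩ : Item)) = id := by
        funext t
        simp
      rw [this, List.map_id]
    rw [e2] at h3
    exact h3
  · -- the objects
    have e : (S.map (trOf l)).flatMap (fun t => [t.2.1, t.2.2])
        = ((S.flatten).filter (fun i => decide (i.kind = Kind.obj ∧ i.lev = l))).map
            (fun i => i.val) := by
      rw [List.filter_flatten, List.map_flatten, List.map_map, List.flatMap_map]
      symm
      apply flat_pair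
      intro T hT
      obtain ⟨t, v1, v2, hb, ho, _⟩ := hshape T hT
      simp only [Function.comp_apply]
      rw [trOf_eq l T _ _ _ hb ho, ho]
      simp
    rw [e]
    have h2' := Multiset.filter_le_filter (fun i : Item => i.kind = Kind.obj ∧ i.lev = l) hSle
    rw [Multiset.filter_coe, Multiset.filter_coe] at h2'
    have h3 := Multiset.map_le_map (f := fun i : Item => i.val) h2'
    rw [Multiset.map_coe, Multiset.map_coe, filter_kind_lev (chainItems c gs) l Kind.obj, hfil,
      filter_obj_level, List.map_map] at h3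
    have e2 : List.map ((fun i : Item => i.val) ∘ fun o => (⟨l, Kind.obj, o⟩ : Item)) g.objs
        = g.objs := by
      have : ((fun i : Item => i.val) ∘ fun o => (⟨l, Kind.obj, o⟩ : Item)) = id := by
        funext t
        simp
      rw [this, List.map_id]
    rw [e2] at h3
    exact h3
  · -- the pairs fit
    intro t ht
    obtain ⟨T, hT, rfl⟩ := List.mem_map.mp ht
    obtain ⟨t, v1, v2, hb, ho, hle⟩ := hshape T hT
    rw [trOf_eq l T _ _ _ hb ho]
    simpa using hle

/-- **Integral bound for chain instances.**  Every family of triples of a chain instance whose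
deviation sums are nonpositive leaves at least `c + 3` items uncovered. -/
theorem chain_deficient (lam V : ℤ) (c : ℕ) (gs : List Gadget) (hV : 1 ≤ V) (hlam : 2 * V < lam)
    (hg : ∀ g ∈ gs, GadgetOK V c g) (triples : List (List Item))
    (hsub : ((triples.flatten : List Item) : Multiset Item) ≤ (chainItems c gs : Multiset Item))
    (hlen : ∀ T ∈ triples, T.length = 3)
    (hfit : ∀ T ∈ triples, (T.map (dev lam)).sum ≤ 0) :
    3 * triples.length + (c + 3) ≤ (chainItems c gs).length := by
  have hmem : ∀ T ∈ triples, ∀ i ∈ T, i ∈ chainItems c gs := fun T hT i hi => by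
    have : i ∈ ((triples.flatten : List Item) : Multiset Item) := by
      simp only [Multiset.mem_coe, List.mem_flatten]
      exact ⟨T, hT, hi⟩
    exact Multiset.mem_coe.mp (Multiset.mem_of_le hsub this)
  have key := core Item.lev Item.kind
    (fun l => ((chainItems c gs).filter (fun i => decide (i.lev = l ∧ i.kind = Kind.bin))).length)
    c gs.length (chainItems c gs : Multiset Item) triples hsub hlen
    (fun i hi => chain_lev_le c gs (Multiset.mem_coe.mp hi))
    (by
      rw [Multiset.filter_coe, Multiset.coe_card, chain_level0, List.length_replicate])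
    (by
      intro l _ _
      rw [Multiset.filter_coe, Multiset.coe_card])
    (by
      intro l h1 h2
      obtain ⟨g, hgs, hfil⟩ := chain_level c gs l h1 h2
      obtain ⟨_, _, _, hlenO, _, _⟩ := hg g hgs
      rw [Multiset.filter_coe, Multiset.coe_card, filter_lev_kind, filter_lev_kind, hfil,
        filter_obj_level, filter_bin_level, List.length_map, List.length_map, hlenO])
    (by
      intro l h1 h2
      obtain ⟨g, hgs, hfil⟩ := chain_level c gs l h1 h2
      rw [Multiset.filter_coe, Multiset.coe_card, filter_lev_kind, hfil, filter_abs_level]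
      rfl)
    (by
      intro i hi h1
      have hi' := Multiset.mem_coe.mp hi
      obtain ⟨g, hgs, hfil⟩ := chain_level c gs i.lev h1 (chain_lev_le c gs hi')
      have him : i ∈ levelItems i.lev g := by
        rw [← hfil]
        exact List.mem_filter.mpr ⟨hi', by simp⟩
      rcases mem_levelItems.mp him with ⟨t, _, h⟩ | ⟨v, _, h⟩ | h <;> rw [h] <;> simp)
    (fun T hT => chain_A1 lam c gs T (hmem T hT) (hlen T hT) (hfit T hT))
    (fun T hT o ho hk hle =>
      chain_A2 lam V c gs hV hlam hg T (hmem T hT) (hlen T hT) (hfit T hT) o ho hk hle)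
    (fun l h1 h2 => chain_A3 lam V c gs hV hlam hg triples hsub hlen hfit l h1 h2)
  rw [Multiset.coe_card] at key
  exact key


/-- All deviations of a chain instance are bounded by `lam ^ (number of levels) * V`. -/
lemma chain_dev_abs_le (lam V : ℤ) (c : ℕ) (gs : List Gadget) (hV : 1 ≤ V) (hlam : 2 * V < lam)
    (hg : ∀ g ∈ gs, GadgetOK V c g) {i : Item} (h : i ∈ chainItems c gs) :
    |dev lam i| ≤ lam ^ gs.length * V := by
  unfold dev
  have hlam1 : (1 : ℤ) ≤ lam := by omega
  have hpos : (0 : ℤ) < lam ^ i.lev := by positivity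
  rw [abs_mul, abs_of_pos hpos]
  have h1 : lam ^ i.lev ≤ lam ^ gs.length := pow_le_pow_right₀ hlam1 (chain_lev_le c gs h)
  have h2 := chain_val_le V c gs hV hg h
  calc lam ^ i.lev * |i.val| ≤ lam ^ gs.length * |i.val| :=
        mul_le_mul_of_nonneg_right h1 (abs_nonneg _)
    _ ≤ lam ^ gs.length * V := mul_le_mul_of_nonneg_left h2 (by positivity)

end Vale.Agent.H5.BinPack
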