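import Mathlib
import Vale.Agent.H5.BinPack.Inst
import Vale.Agent.H15.BP.Frame

/-!
# The optimum of a chain instance (support for P302)

`chain_OPT`: a chain instance with sizes `devSize D (dev lam a)` (that is `1/3 + dev/(3 D)`)
cannot be packed into `K` bins as soon as `6 * K < 2 * n + (c + 3)`, where `n` is the number of
items.
-/

namespace Vale.Agent.H5.BinPack

open Vale.Agent.H50.BinPack Vale.Agent.H15.BP

/-- **Lower bound for the optimum of a chain instance.** -/
theorem chain_OPT (lam V D : ℤ) (c : ℕ) (gs : List Gadget) (hV : 1 ≤ V) (hlam : 2 * V < lam)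
    (hg : ∀ g ∈ gs, GadgetOK V c g) (hD : 4 * (lam ^ gs.length * V) < D) (K : ℕ)
    (hK : 6 * K < 2 * (chainItems c gs).length + (c + 3)) :
    K < OPT ((chainItems c gs).map (fun a => devSize D (dev lam a))) := by
  apply lt_OPT_dev (dev lam) D (chainItems c gs) _ (c + 3) _ K hK
  · intro a ha
    have := chain_dev_abs_le lam V c gs hV hlam hg ha
    linarith
  · intro triples hsub hlen hfit
    exact chain_deficient lam V c gs hV hlam hg triples hsub hlen hfit

end Vale.Agent.H5.BinPack
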